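import Vale.Agent.P032.S5.H767.Let

/-!
# P032: two-coloured zones, curtains and swaps (wild frame `Irr U T`)

* `two_pt` (2C) : `|y - t| = 1`, `T y` and `T t` inside `{i, j}`: one of them is `{i}`, the other one `{j}`.
* `split` : a connected set on which exactly one of `i, j` occurs at every point has one of them everywhere.
* `curtain` (CUR) : a connected set `K` with lists inside `{i, j}`, every point of `K` at distance one from a point with
  a list inside `{i, j}`: the list is constant on `K`; `curtain_cross` : the same with a connected curtain `B` which has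
  points on both sides of `S(v)`, `v` in `K`.
* `swap_arc` : `c, d` in `T V`, `|V - y| = 1`, `T y` inside `{c, d}`: exact `cd`-points `q` of `S(V)` arbitrarily near `y`,
  and on `S(q)` only `V` and `2 q - V` have `c` or `d`; `four_swap`; `swap_cross` : no connected set with `c` or `d` at
  every point, away from `V` and `2 y - V`, has points on both sides of `S(y)`.
-/

open Set Filter Topology Metric

noncomputable section

namespace Vale.Agent.P032.H904

open Vale.Agent.P032.Six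

variable {k : ℕ} {U : Fin k → Set ℂ} {T : ℂ → Set (Fin k)} {i j : Fin k}

theorem pair_le (i j : Fin k) : ({i, j} : Set (Fin k)).ncard ≤ 2 := by
  have := Set.ncard_insert_le i ({j} : Set (Fin k))
  rwa [Set.ncard_singleton] at this

theorem card_pair (s : Set (Fin k)) (hs : s ⊆ {i, j}) : s.ncard ≤ 2 :=
  (Set.ncard_le_ncard hs (Set.toFinite _)).trans (pair_le i j)

/-- a list inside `{i, j}` which is not empty -/
theorem pair_cases {s : Set (Fin k)} (hs : s ⊆ {i, j}) (hne : s.Nonempty) : s = {i} ∨ s = {j} ∨ s = {i, j} := by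
  by_cases hi : i ∈ s <;> by_cases hj : j ∈ s
  · exact Or.inr (Or.inr (Subset.antisymm hs (by rintro x (rfl | rfl) <;> assumption)))
  · left
    refine Subset.antisymm (fun x hx => ?_) (by rintro x rfl; exact hi)
    rcases hs hx with h | h
    · exact h
    · exact absurd (h ▸ hx) hj
  · right; left
    refine Subset.antisymm (fun x hx => ?_) (by rintro x rfl; exact hj)
    rcases hs hx with h | h
    · exact absurd (h ▸ hx) hi
    · exact h
  · obtain ⟨x, hx⟩ := hne
    rcases hs hx with h | h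
    · exact absurd (h ▸ hx) hi
    · exact absurd (h ▸ hx) hj

/-- **(2C)** two points at distance one with lists inside `{i, j}` -/
theorem two_pt (h : Irr U T) {y t : ℂ} (hyt : dist y t = 1) (hy : T y ⊆ {i, j}) (ht : T t ⊆ {i, j}) :
    (T y = {i} ∧ T t = {j}) ∨ (T y = {j} ∧ T t = {i}) := by
  have h1 : ¬ T y ⊆ T t := h.not_sub hyt ((card_pair _ ht).trans (by norm_num))
  have h2 : ¬ T t ⊆ T y := h.not_sub (by rw [dist_comm]; exact hyt) ((card_pair _ hy).trans (by norm_num))
  rcases pair_cases hy (h.ne y) with a | a | a <;> rcases pair_cases ht (h.ne t) with b | b | b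
  · exact absurd (by rw [a, b]) h1
  · exact Or.inl ⟨a, b⟩
  · exact absurd (by rw [b]; exact hy) h1
  · exact Or.inr ⟨a, b⟩
  · exact absurd (by rw [a, b]) h1
  · exact absurd (by rw [b]; exact hy) h1
  · exact absurd (by rw [a]; exact ht) h2
  · exact absurd (by rw [a]; exact ht) h2
  · exact absurd (by rw [b]; exact hy) h1

/-- (2C), one point form -/
theorem two_pt_one (h : Irr U T) {y t : ℂ} (hyt : dist y t = 1) (hy : T y ⊆ {i, j}) (ht : T t ⊆ {i, j}) :
    T y = {i} ∨ T y = {j} := by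
  rcases two_pt h hyt hy ht with h1 | h1
  · exact Or.inl h1.1
  · exact Or.inr h1.1

/-- a connected set on which `i` or `j` occurs at every point, never both -/
theorem split (h : Irr U T) {K : Set ℂ} (hK : IsPreconnected K) (h1 : ∀ x ∈ K, i ∈ T x ∨ j ∈ T x)
    (h2 : ∀ x ∈ K, ¬ (i ∈ T x ∧ j ∈ T x)) : (∀ x ∈ K, i ∈ T x ∧ j ∉ T x) ∨ ∀ x ∈ K, j ∈ T x ∧ i ∉ T x := by
  by_contra hcon
  push Not at hcon
  obtain ⟨⟨x, hx, hx1⟩, y, hy, hy1⟩ := hcon
  have hxj : j ∈ T x := by
    rcases h1 x hx with h3 | h3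
    · exact hx1 h3
    · exact h3
  have hyi : i ∈ T y := by
    rcases h1 y hy with h3 | h3
    · exact h3
    · exact hy1 h3
  obtain ⟨w, hwK, hwi, hwj⟩ := isPreconnected_closed_iff.1 hK {x | i ∈ T x} {x | j ∈ T x} (h.closed i) (h.closed j)
    (fun x hx => h1 x hx) ⟨y, hy, hyi⟩ ⟨x, hx, hxj⟩
  exact h2 w hwK ⟨hwi, hwj⟩

/-- a connected set on which the list is `{i}` or `{j}` at every point -/
theorem split_single (h : Irr U T) (hij : i ≠ j) {K : Set ℂ} (hK : IsPreconnected K)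
    (h1 : ∀ x ∈ K, T x = {i} ∨ T x = {j}) : (∀ x ∈ K, T x = {i}) ∨ ∀ x ∈ K, T x = {j} := by
  have e1 : ∀ x ∈ K, i ∈ T x ∨ j ∈ T x := by
    intro x hx
    rcases h1 x hx with h3 | h3
    · left; rw [h3]; rfl
    · right; rw [h3]; rfl
  have e2 : ∀ x ∈ K, ¬ (i ∈ T x ∧ j ∈ T x) := by
    rintro x hx ⟨h4, h5⟩
    rcases h1 x hx with h3 | h3
    · rw [h3] at h5; exact hij h5.symm
    · rw [h3] at h4; exact hij h4
  rcases split h hK e1 e2 with h3 | h3
  · left
    intro x hx
    rcases h1 x hx with h4 | h4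
    · exact h4
    · have := (h3 x hx).1
      rw [h4] at this
      exact absurd this hij
  · right
    intro x hx
    rcases h1 x hx with h4 | h4
    · have := (h3 x hx).1
      rw [h4] at this
      exact absurd this.symm hij
    · exact h4

/-- **(CUR) the curtain rule** -/
theorem curtain (h : Irr U T) (hij : i ≠ j) {K : Set ℂ} (hK : IsPreconnected K) (hT : ∀ x ∈ K, T x ⊆ {i, j})
    (hy : ∀ v ∈ K, ∃ y, dist y v = 1 ∧ T y ⊆ {i, j}) : (∀ x ∈ K, T x = {i}) ∨ ∀ x ∈ K, T x = {j} := by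
  refine split_single h hij hK fun x hx => ?_
  obtain ⟨y, hy1, hy2⟩ := hy x hx
  exact two_pt_one h (by rw [dist_comm]; exact hy1) (hT x hx) hy2

/-- a connected set with points on both sides of a unit circle meets the circle -/
theorem meets {B : Set ℂ} (hB : IsPreconnected B) {v p q : ℂ} (hp : p ∈ B) (hq : q ∈ B) (h1 : dist p v ≤ 1)
    (h2 : 1 ≤ dist q v) : ∃ y ∈ B, dist y v = 1 := by
  have hc : ContinuousOn (fun x => dist x v) B := by fun_prop
  obtain ⟨y, hy, hy1⟩ := hB.intermediate_value hp hq hc ⟨h1, h2⟩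
  exact ⟨y, hy, hy1⟩

/-- (CUR) with a connected curtain crossed by all circles about points of `K` -/
theorem curtain_cross (h : Irr U T) (hij : i ≠ j) {K B : Set ℂ} (hK : IsPreconnected K) (hT : ∀ x ∈ K, T x ⊆ {i, j})
    (hB : IsPreconnected B) (hTB : ∀ x ∈ B, T x ⊆ {i, j})
    (hc : ∀ v ∈ K, (∃ p ∈ B, dist p v ≤ 1) ∧ ∃ q ∈ B, 1 ≤ dist q v) :
    (∀ x ∈ K, T x = {i}) ∨ ∀ x ∈ K, T x = {j} := by
  refine curtain h hij hK hT fun v hv => ?_
  obtain ⟨⟨p, hp, hp1⟩, q, hq, hq1⟩ := hc v hv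
  obtain ⟨y, hy, hy1⟩ := meets hB hp hq hp1 hq1
  exact ⟨y, hy1, hTB y hy⟩

/-- (2C) for a connected set and its image under a continuous family of unit vectors: opposite colours -/
theorem shift (h : Irr U T) (hij : i ≠ j) {K : Set ℂ} (hK : IsPreconnected K) {v : ℂ → ℂ}
    (hv : ∀ x ∈ K, ‖v x‖ = 1) (hT : ∀ x ∈ K, T x ⊆ {i, j}) (hT' : ∀ x ∈ K, T (x + v x) ⊆ {i, j}) :
    (∀ x ∈ K, T x = {i} ∧ T (x + v x) = {j}) ∨ ∀ x ∈ K, T x = {j} ∧ T (x + v x) = {i} := by
  have key : ∀ x ∈ K, (T x = {i} ∧ T (x + v x) = {j}) ∨ (T x = {j} ∧ T (x + v x) = {i}) := by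
    intro x hx
    refine two_pt h ?_ (hT x hx) (hT' x hx)
    rw [dist_eq_norm, show x - (x + v x) = - v x by ring, norm_neg, hv x hx]
  have hs : ({i} : Set (Fin k)) ≠ {j} := fun h3 => hij (Set.singleton_injective h3)
  rcases split_single h hij hK fun x hx => (key x hx).imp (fun h3 => h3.1) fun h3 => h3.1 with h3 | h3
  · left
    intro x hx
    rcases key x hx with h4 | h4
    · exact h4
    · exact absurd ((h3 x hx).symm.trans h4.1) hs
  · right
    intro x hx
    rcases key x hx with h4 | h4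
    · exact absurd (h4.1.symm.trans (h3 x hx)) hs
    · exact h4

/-! ### swaps -/

variable {c d : Fin k}

/-- **swap point**: `c, d` in `T V`, `|V - y| = 1`, `T y` inside `{c, d}`: arbitrarily near `y` there are points `q` of `S(V)`
near which `T = {c, d}` on `S(V)`; and `|T V| >= 4` -/
theorem swap_arc (h : Irr U T) {V y : ℂ} (hc : c ∈ T V) (hd : d ∈ T V) (hVy : dist V y = 1)
    (hy : T y ⊆ {c, d}) {N : Set ℂ} (hN : N ∈ 𝓝 y) :
    ∃ q ∈ N, dist q V = 1 ∧ T q = {c, d} ∧ (∀ᶠ q' in 𝓝[sphere V 1] q, T q' = {c, d}) ∧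
      2 ≤ (T V \ {c, d}).ncard := by
  have hsub : T y ⊆ T V := hy.trans (by rintro x (rfl | rfl) <;> assumption)
  obtain ⟨q, hq, hqV, hqc, hqs, hq2, hq3⟩ := h.arc_of_sub (x := V) (y := y) (by rw [dist_comm]; exact hVy) hsub hN
  have h1 : T q = {c, d} := by
    refine Set.eq_of_subset_of_ncard_le (hqs.trans hy) ?_ (Set.toFinite _)
    exact (pair_le c d).trans hq2
  refine ⟨q, hq, hqV, h1, ?_, ?_⟩
  · rw [h1] at hqc; exact hqc
  · rw [h1] at hq3; exact hq3

/-- a point with `c, d` which has a neighbour with a list inside `{c, d}` has at least four colours -/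
theorem four_swap (h : Irr U T) (hcd : c ≠ d) {V y : ℂ} (hc : c ∈ T V) (hd : d ∈ T V) (hVy : dist V y = 1)
    (hy : T y ⊆ {c, d}) : 4 ≤ (T V).ncard := by
  obtain ⟨q, -, -, -, -, h2⟩ := swap_arc h hc hd hVy hy univ_mem
  have h3 := Set.ncard_sdiff (s := ({c, d} : Set (Fin k))) (t := T V)
    (by rintro x (rfl | rfl) <;> assumption) (Set.toFinite _)
  rw [Set.ncard_pair hcd] at h3
  omega

/-- the points `q` of `swap_arc`: on `S(q)` only `V` and `2 q - V` have `c` or `d` -/
theorem swap_free (h : Irr U T) {V q t : ℂ} (hqV : dist q V = 1)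
    (hq : ∀ᶠ q' in 𝓝[sphere V 1] q, T q' = {c, d}) (hqt : dist q t = 1) (ht : c ∈ Pal U t ∨ d ∈ Pal U t) :
    t = V ∨ t + V = 2 * q := by
  rcases ht with h1 | h1
  · refine h.mx.partner_line hqV (hq.mono fun q' hq' => h.sub q' ?_) hqt h1
    rw [hq']; exact Or.inl rfl
  · refine h.mx.partner_line hqV (hq.mono fun q' hq' => h.sub q' ?_) hqt h1
    rw [hq']; exact Or.inr rfl

/-- **(SWAP)** a connected set `B`, away from `V` and `2 y - V`, with `c` or `d` at every point, has no points on both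
sides of `S(y)` -/
theorem swap_cross (h : Irr U T) {V y : ℂ} (hc : c ∈ T V) (hd : d ∈ T V) (hVy : dist V y = 1)
    (hy : T y ⊆ {c, d}) {B : Set ℂ} (hB : IsPreconnected B) (hBT : ∀ x ∈ B, c ∈ Pal U x ∨ d ∈ Pal U x)
    (hV : V ∉ B) (hV' : 2 * y - V ∉ closure B) {p p' : ℂ} (hp : p ∈ B) (hp' : p' ∈ B) (h1 : dist p y < 1)
    (h2 : 1 < dist p' y) : False := by
  have e1 : ∀ᶠ q in 𝓝 y, dist p q < 1 := by
    have : Continuous fun q => dist p q := by fun_prop
    exact this.continuousAt.eventually (gt_mem_nhds h1)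
  have e2 : ∀ᶠ q in 𝓝 y, 1 < dist p' q := by
    have : Continuous fun q => dist p' q := by fun_prop
    exact this.continuousAt.eventually (lt_mem_nhds h2)
  have e3 : ∀ᶠ q in 𝓝 y, 2 * q - V ∉ closure B := by
    have h3 : Continuous fun q : ℂ => 2 * q - V := by fun_prop
    exact h3.continuousAt.eventually (isClosed_closure.isOpen_compl.mem_nhds hV')
  obtain ⟨q, ⟨⟨hq1, hq2⟩, hq3⟩, hqV, -, hqc, -⟩ := swap_arc h hc hd hVy hy ((e1.and e2).and e3)
  obtain ⟨t, ht, ht1⟩ := meets hB hp hp' hq1.le hq2.le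
  rcases swap_free h hqV hqc (by rw [dist_comm]; exact ht1) (hBT t ht) with h4 | h4
  · exact hV (h4 ▸ ht)
  · refine hq3 (subset_closure ?_)
    rw [← h4, add_sub_cancel_right]
    exact ht

/-- a swap point needs four colours: with at most three colours at `V` the neighbour `y` cannot exist; list form along a
connected set `K` with `c` or `d` at every point: if no point of `K` is a swap point, `K` is solid `c` or solid `d` -/
theorem solid_of_no_swap (h : Irr U T) {K : Set ℂ} (hK : IsPreconnected K) (h1 : ∀ x ∈ K, c ∈ T x ∨ d ∈ T x)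
    (h2 : ∀ V ∈ K, ∃ y, dist V y = 1 ∧ T y ⊆ {c, d} ∧ ((T V).ncard ≤ 3 ∨ ∃ B : Set ℂ, IsPreconnected B ∧
      (∀ x ∈ B, c ∈ Pal U x ∨ d ∈ Pal U x) ∧ V ∉ B ∧ 2 * y - V ∉ closure B ∧
      ∃ p ∈ B, ∃ p' ∈ B, dist p y < 1 ∧ 1 < dist p' y)) (hcd : c ≠ d) :
    (∀ x ∈ K, c ∈ T x ∧ d ∉ T x) ∨ ∀ x ∈ K, d ∈ T x ∧ c ∉ T x := by
  refine split h hK h1 fun V hV hcd' => ?_
  obtain ⟨y, hVy, hy, h3⟩ := h2 V hV
  rcases h3 with h3 | ⟨B, hB, hBT, hVB, hVB', p, hp, p', hp', h4, h5⟩
  · have := four_swap h hcd hcd'.1 hcd'.2 hVy hy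
    omega
  · exact swap_cross h hcd'.1 hcd'.2 hVy hy hB hBT hVB hVB' hp hp' h4 h5

end Vale.Agent.P032.H904
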